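import Vale.Agent.P284.H366.J.Asm
import Vale.Agent.P284.H650.T.Spec

/-!
# P284 (helper366), theorem T3⁺: module (T1), `LimJStmt`
-/

open scoped Manifold ContDiff Topology InnerProductSpace ComplexConjugate
open Filter Set Metric

noncomputable section

namespace Vale.Agent.P284.H366.T

open Vale.Agent.P272.K Vale.Agent.P284.H894.V Vale.Agent.P284.H213.Grp Vale.Agent.P284.H650.T

/-- **(T1)**, the limit -/
theorem limJ : LimJStmt := by
  intro n q X _ _ _ _ _ _ w E Γ _ _ _ _ p F c K hS hq hK ι _ ζ hζ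
  have hadd := hS.lat.add
  have hc1 : c 1 = 0 := by
    have := hadd 1 1
    rw [mul_one] at this
    simpa using this
  have hcinv : ∀ g, c g⁻¹ = - c g := by
    intro g
    have := hadd g g⁻¹
    rw [mul_inv_cancel, hc1] at this
    exact (neg_eq_of_add_eq_zero_right this.symm).symm
  have hN : K.Normal := ⟨fun g hg h => by
    rw [hS.ker] at hg ⊢
    rw [hadd, hadd, hg, hcinv]
    simp⟩
  obtain ⟨W, i1, i2, i3, π, S, Θ, J, h1, h2, h3, h4, h5, h6, h7⟩ :=
    H366.J.limAtTJ hq n X w hS.kah E Γ p hS.gal F c K hS.hol hS.eqv hS.reg hS.conn hS.lat hN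
      (fun g hg => (hS.ker g).1 hg) ⟨{1}, Set.finite_singleton 1, fun g hg => ⟨1, rfl, by
        rw [inv_one, one_mul]
        exact (hS.ker g).2 hg⟩⟩ hK ι ζ hζ
  refine ⟨W, i1, i2, i3, π, S, Θ, J, ⟨h1, ⟨h3, h4, h5⟩, h6, fun t ht hr => ?_⟩, h2⟩
  obtain ⟨u, hu, -, -, -, hb⟩ := h7 t ht hr
  exact ⟨u, hb, hu⟩

end Vale.Agent.P284.H366.T
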