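import Vale.Agent.P284.H619.T.Th
import Vale.Agent.P284.H366.J.Disp2
import Vale.Agent.P284.H212.LF
import Vale.Agent.P284.H335.CStkC

/-!
# P284 (helper366), T3⁺: the clopen part `𝒪` of the sheet on which the displacements are functions of
the sheet parameter
-/

open scoped Manifold ContDiff Topology InnerProductSpace ComplexConjugate
open Filter Set Metric

noncomputable section

set_option linter.unusedSectionVars false

namespace Vale.Agent.P284.H366.T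

open Vale.Agent.P272.K Vale.Agent.P284.H894 Vale.Agent.P284.H894.G Vale.Agent.P284.H894.V
  Vale.Agent.P284.H894.W Vale.Agent.P284.H573 Vale.Agent.P284.H213.Grp Vale.Agent.P284.H395
  Vale.Agent.P284.H619 Vale.Agent.P284.H625 Vale.Agent.P284.H378 Vale.Agent.P284.H478.G
  Vale.Agent.P284.H494 Vale.Agent.P284.H501 Vale.Agent.P284.H501.Core
  Vale.Agent.P284.H119.Kaz Vale.Agent.P284.H213.Q Vale.Agent.P284.H650.T

/-! ### Sections of submersions on the covering -/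

section
variable {n s : ℕ} {X : Type} [TopologicalSpace X] [ChartedSpace (Cm n) X]
  {E : Type} [TopologicalSpace E] {p : E → X}

/-- local sections on the covering -/
theorem exists_secE (hp : IsCoveringMap p) {y₀ : E} {e : Chart n X} (he : At e (p y₀))
    {B : Cm n → Cm s} (hB : AnalyticAt ℂ B (e (p y₀)))
    (hs : Function.Surjective (fderiv ℂ B (e (p y₀)))) {O : Set E} (hO : O ∈ 𝓝 y₀) :
    ∃ σ : Cm s → E, ∃ r > 0, ∀ x ∈ ball (B (e (p y₀))) r, ContinuousAt σ x ∧ σ x ∈ O ∧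
      At e (p (σ x)) ∧ B (e (p (σ x))) = x ∧ AnalyticAt ℂ (fun x => e (p (σ x))) x := by
  obtain ⟨s', φ, χ, hs', hφ, hφ0, hχ, hχ0, h1, h2, h3⟩ := H625.exists_straight hB hs
  set z₀ := e (p y₀) with hz₀
  set L : Cm n →L[ℂ] Cm s := fderiv ℂ B z₀ with hL
  obtain ⟨h, hy₀, hh⟩ := hp.isLocalHomeomorph y₀
  have hpe : ∀ y, h y = p y := fun y => by rw [hh]
  set σ₀ : Cm s → Cm n := fun x => χ (s' (x - B z₀)) with hσ₀
  set σ : Cm s → E := fun x => h.symm (e.symm (σ₀ x)) with hσ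
  have hex : e.symm (e (p y₀)) = p y₀ := e.left_inv he.2
  have hmt : e (p y₀) ∈ e.target := e.map_source he.2
  have hht : p y₀ ∈ h.target := by rw [← hpe]; exact h.map_source hy₀
  have hs0 : s' (B z₀ - B z₀) = 0 := by rw [sub_self, map_zero]
  have hct : Tendsto (fun x : Cm s => s' (x - B z₀)) (𝓝 (B z₀)) (𝓝 0) := by
    have h4 : Continuous fun x : Cm s => s' (x - B z₀) :=
      s'.continuous.comp (continuous_id.sub continuous_const)
    have := h4.tendsto (B z₀)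
    rwa [hs0] at this
  have hχc : Tendsto χ (𝓝 0) (𝓝 z₀) := by
    have := hχ.continuousAt.tendsto
    rwa [hχ0] at this
  have hc2 : Tendsto (fun u => e.symm (χ u)) (𝓝 0) (𝓝 (p y₀)) := by
    have := (e.continuousAt_symm hmt).tendsto.comp hχc
    rwa [hex] at this
  have hc3 : Tendsto (fun u => h.symm (e.symm (χ u))) (𝓝 0) (𝓝 y₀) := by
    have h5 := (h.continuousAt_symm hht).tendsto.comp hc2
    have h6 : h.symm (p y₀) = y₀ := by rw [← hpe, h.left_inv hy₀]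
    rwa [h6] at h5
  have hev : ∀ᶠ x in 𝓝 (B z₀), AnalyticAt ℂ χ (s' (x - B z₀)) ∧ σ₀ x ∈ e.target ∧
      e.symm (σ₀ x) ∈ h.target ∧ σ x ∈ O ∧ At e (p (σ x)) ∧
      B (σ₀ x) = B z₀ + L (s' (x - B z₀)) := by
    filter_upwards [hct.eventually hχ.eventually_analyticAt,
      hct.eventually (hχc.eventually (e.open_target.mem_nhds hmt)),
      hct.eventually (hc2.eventually (h.open_target.mem_nhds hht)),
      hct.eventually (hc3.eventually hO), hct.eventually (hc3.eventually (at_ev hp he)),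
      hct.eventually h3] with x g1 g2 g3 g4 g5 g6
    exact ⟨g1, g2, g3, g4, g5, g6⟩
  obtain ⟨r, hr, hball⟩ := Metric.eventually_nhds_iff_ball.1 hev
  have hep : ∀ x ∈ ball (B z₀) r, e (p (σ x)) = σ₀ x := by
    intro x hx
    obtain ⟨g1, g2, g3, g4, g5, g6⟩ := hball x hx
    have h7 : p (σ x) = e.symm (σ₀ x) := by
      rw [← hpe]
      exact h.right_inv g3
    rw [h7, e.right_inv g2]
  refine ⟨σ, r, hr, fun x hx => ?_⟩
  obtain ⟨g1, g2, g3, g4, g5, g6⟩ := hball x hx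
  have hσ₀a : AnalyticAt ℂ σ₀ x := by
    refine AnalyticAt.comp (g := χ) (f := fun x => s' (x - B z₀)) g1 ?_
    exact (s'.analyticAt _).comp (analyticAt_id.sub analyticAt_const)
  refine ⟨?_, g4, g5, ?_, ?_⟩
  · have k1 : ContinuousAt (fun x => e.symm (σ₀ x)) x :=
      ContinuousAt.comp (g := e.symm) (e.continuousAt_symm g2) hσ₀a.continuousAt
    exact ContinuousAt.comp (g := h.symm) (f := fun x => e.symm (σ₀ x)) (h.continuousAt_symm g3) k1
  · rw [hep x hx, g6, hs']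
    abel
  · refine hσ₀a.congr ?_
    filter_upwards [isOpen_ball.mem_nhds hx] with x' hx' using (hep x' hx').symm

/-- open connected neighbourhoods on the covering -/
theorem exists_conn_nhd (hp : IsCoveringMap p) {y : E} {e : Chart n X} (he : At e (p y)) {O : Set E}
    (hO : O ∈ 𝓝 y) : ∃ U ⊆ O, IsOpen U ∧ y ∈ U ∧ IsPreconnected U := by
  obtain ⟨h, hy, hh⟩ := hp.isLocalHomeomorph y
  have hpe : ∀ y, h y = p y := fun y => by rw [hh]
  set g := h.trans e with hg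
  have hgs : y ∈ g.source := by
    rw [hg, OpenPartialHomeomorph.trans_source]
    exact ⟨hy, by show h y ∈ e.source; rw [hpe]; exact he.2⟩
  have hgt : g y ∈ g.target := g.map_source hgs
  have hev : ∀ᶠ z in 𝓝 (g y), z ∈ g.target ∧ g.symm z ∈ O := by
    refine Filter.Eventually.and (g.open_target.mem_nhds hgt) ?_
    have h1 := (g.continuousAt_symm hgt).tendsto
    rw [g.left_inv hgs] at h1
    exact h1.eventually hO
  obtain ⟨r, hr, hball⟩ := Metric.eventually_nhds_iff_ball.1 hev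
  refine ⟨g.symm '' ball (g y) r, ?_, ?_, ?_, ?_⟩
  · rintro _ ⟨z, hz, rfl⟩
    exact (hball z hz).2
  · exact g.symm.isOpen_image_of_subset_source isOpen_ball (fun z hz => (hball z hz).1)
  · exact ⟨g y, mem_ball_self hr, g.left_inv hgs⟩
  · exact (convex_ball _ _).isPreconnected.image _
      (g.symm.continuousOn.mono fun z hz => (hball z hz).1)

end

/-! ### The sheet parameter -/

section
variable {n R q s k : ℕ} {X : Type} [TopologicalSpace X] [ChartedSpace (Cm n) X]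
  {E : Type} [TopologicalSpace E] {p : E → X} {F : E → Cm q} {H : Type} [NormedAddCommGroup H]
  [InnerProductSpace ℂ H] {v : E → Chart n X → (Fin R → Cm n) → H} {D : LeafDat q s k H}

/-- the sheet parameter spans the line -/
lemma sh_onL (hH : ∀ y (e e' : Chart n X), At e (p y) → At e' (p y) → ∀ ξ, v y e ξ =
      v y e' (fun i => fderiv ℂ (fun z => e' (e.symm z)) (e (p y)) (ξ i))) {y : E} {b : Cm s}
    (h : Sh p v F D y b) (e : Chart n X) (he : At e (p y)) (ξ : Fin R → Cm n) :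
    ∃ a : ℂ, v y e ξ = a • D.γ b := by
  obtain ⟨e', β, he', -, hb, hev⟩ := h
  have h1 := hev.self_of_nhds.1
  rw [hb] at h1
  rw [hH y e e' he he' ξ]
  exact h1 _

/-- uniqueness of the sheet parameter -/
lemma sh_uniq (hH : ∀ y (e e' : Chart n X), At e (p y) → At e' (p y) → ∀ ξ, v y e ξ =
      v y e' (fun i => fderiv ℂ (fun z => e' (e.symm z)) (e (p y)) (ξ i)))
    (C : H212.PC D.γ D.b₀) {y : E} (hz : NZ p v y) {b b' : Cm s} (hb : b ∈ ball D.b₀ C.r₁)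
    (hb' : b' ∈ ball D.b₀ C.r₁) (h : Sh p v F D y b)
    (h' : ∀ e : Chart n X, At e (p y) → ∀ ξ, ∃ a : ℂ, v y e ξ = a • D.γ b') : b = b' := by
  obtain ⟨e, he, ξ, hξ⟩ := hz
  obtain ⟨a, ha⟩ := sh_onL hH h e he ξ
  obtain ⟨a', ha'⟩ := h' e he ξ
  have h1 : a ≠ 0 := by rintro rfl; exact hξ (by rw [ha, zero_smul])
  have h2 : a' ≠ 0 := by rintro rfl; exact hξ (by rw [ha', zero_smul])
  refine C.inj hb hb' (a := a⁻¹ * a') (mul_ne_zero (inv_ne_zero h1) h2) ?_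
  rw [mul_smul, ← ha', ha, smul_smul, inv_mul_cancel₀ h1, one_smul]

/-- the sheet near a point -/
lemma sh_near (hp : IsCoveringMap p) {y : E} {b : Cm s} (h : Sh p v F D y b) :
    ∃ (e : Chart n X) (β : Cm n → Cm s), At e (p y) ∧ AnalyticAt ℂ β (e (p y)) ∧
      β (e (p y)) = b ∧ ∀ᶠ y' in 𝓝 y, AnalyticAt ℂ β (e (p y')) ∧ At e (p y') ∧
        Sh p v F D y' (β (e (p y'))) := by
  obtain ⟨e, β, he, hβ, hb, hev⟩ := h
  refine ⟨e, β, he, hβ, hb, ?_⟩
  filter_upwards [(ev_iff hp he (Q := fun z => AnalyticAt ℂ β z)).2 hβ.eventually_analyticAt,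
    at_ev hp he, hev.eventually_nhds] with y' g1 g2 g3
  exact ⟨g1, g2, e, β, g2, g1, rfl, g3⟩

end

theorem thin_univ' (n : ℕ) {X E : Type} [TopologicalSpace X] [ChartedSpace (Cm n) X]
    [TopologicalSpace E] (p : E → X) : Thin n p (univ : Set E) :=
  ⟨isOpen_univ, fun _ _ _ => ⟨fun _ => 1, analyticAt_const, Eventually.frequently
    (Eventually.of_forall fun _ => one_ne_zero), Eventually.of_forall fun _ _ => mem_univ _⟩⟩

/-- **The clopen part `𝒪` of the sheet.** -/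
theorem exists_OO (hLC : LeafConstStmt) (hSep : SepStmt) :
  ∀ (n q r k s m : ℕ) (X : Type) [TopologicalSpace X] [T2Space X] [CompactSpace X]
    [ConnectedSpace X] [ChartedSpace (Cm n) X] [IsManifold 𝓘(ℂ, Cm n) ω X]
    (w : Chart n X → Cm n → Matrix (Fin n) (Fin n) ℂ) (E Γ : Type)
    [TopologicalSpace E] [ConnectedSpace E] [Group Γ] [MulAction Γ E] (p : E → X)
    (F : E → Cm q) (c : Γ → Cm q) (K : Subgroup Γ), Std w p F c K →
    ∀ (W H : Type) [NormedAddCommGroup W] [InnerProductSpace ℂ W] [CompleteSpace W]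
      [NormedAddCommGroup H] [InnerProductSpace ℂ H] [CompleteSpace H]
      (π : Γ →* (W ≃ₗᵢ[ℂ] W)) (S : E → Chart n X → Cm n [⋀^Fin (q + 1)]→L[ℂ] W)
      (Θ : E → Chart n X → (Cm n →L[ℂ] W)) (J : W →SL[starRingEnd ℂ] W) (T : E → E → W),
      JDat p F c π S Θ J → TwoPot p F Θ J T → TEqui n p F π T →
    ∀ (v : E → Chart n X → (Fin (q + r) → Cm n) → H) (U : Γ → (H →ₗᵢ[ℂ] H))
      (N : Cm k →L[ℂ] Cm q) (𝒢 : Set E), LeafE s p F m v U π Θ N 𝒢 →
    ∀ y₀ ∈ 𝒢, F y₀ ∈ RV n p F → ∀ (e : Chart n X) (b : Cm n → Cm (q + r)) (F0 : Cm (q + r) → W)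
        (β : Cm (q + r) → Cm s) (γ : Cm s → H) (τ : Cm s → Cm q),
        LC p F m v U π Θ N y₀ e b F0 β γ τ →
    ∀ D : LeafDat q s k H, IsLD p y₀ e b β γ τ N D →
    ∃ r₁ > 0, ∀ R, 0 < R → R ≤ r₁ → ∃ O : Set E, H988.T.ClPart p v F D R O ∧ y₀ ∈ O ∧
      (∀ y ∈ O, ∀ y' ∈ O, F y ∈ RV n p F → F y' ∈ RV n p F → ∀ b ∈ ball D.b₀ R,
        Sh p v F D y b → Sh p v F D y' b → ∀ κ : Γ, c κ = 0 → T y (κ • y) = T y' (κ • y')) ∧
      ∀ g, (∀ h ∈ K, g * h = h * g) → π g = 1 → c g ∈ LinearMap.range (N : Cm k →ₗ[ℂ] Cm q) →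
        ∀ y ∈ O, g • y ∈ O := by
  intro n q r k s m X _ _ _ _ _ _ w E Γ _ _ _ _ p F c K hS W H _ _ _ _ _ _ π S Θ J T hJ hT hE v U N
    𝒢 hL y₀ hy₀ hFy₀ e b F0 β γ τ hC D hD
  have hp := hS.gal.cov
  obtain ⟨hRVo, hRVd, -, -, hRVc, hsep⟩ := hSep n q X w E Γ p F c K hS
  obtain ⟨-, -, hprim, -, -⟩ := H619.T.thStmt n q X w E Γ p F c K hS W π S Θ J hJ
  obtain ⟨B₀, hB₀⟩ := hS.hol
  have hHol : HolE n p F := H619.T.holE_of hB₀
  have hFc : Continuous F := H366.J.cont_F hp hHol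
  have hpg : ∀ (g : Γ) y, p (g • y) = p y := fun g y => ((hS.gal.orb _ _).2 ⟨g, rfl⟩).symm
  have hFκ : ∀ κ : Γ, c κ = 0 → ∀ y, F (κ • y) = F y := fun κ hκ y => by
    rw [hS.eqv, hκ, add_zero]
  have hv := hL.form
  -- the displacements are real parts of analytic maps, in every chart
  have hdsp : ∀ κ : Γ, c κ = 0 → ∀ y (e : Chart n X), F y ∈ RV n p F → At e (p y) →
      ∃ Ψ : Cm n → W, AnalyticAt ℂ Ψ (e (p y)) ∧
        ∀ᶠ y' in 𝓝 y, T y' (κ • y') = Ψ (e (p y')) + J (Ψ (e (p y'))) := by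
    intro κ hκ y e hy he
    have hreg : Reg (n := n) p F y := hy y rfl
    have hreg' : Reg (n := n) p F (κ • y) := hy _ (hFκ κ hκ y)
    have he' : At e (p (κ • y)) := by rwa [hpg]
    obtain ⟨G, hG⟩ := hprim y e hreg he
    obtain ⟨G', hG'⟩ := hprim (κ • y) e hreg' he'
    obtain ⟨a, ha, hev⟩ := hT.loc y (κ • y) e e G G' (hFκ κ hκ y).symm hy he he' hG hG'
    obtain ⟨f, hf, hfa⟩ := hHol y e he
    have hfe : f (e (p y)) = F y := hf.self_of_nhds.symm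
    have hG'an : AnalyticAt ℂ G' (e (p y)) := by
      have := hG'.an
      rwa [hpg] at this
    refine ⟨fun z => G' z - G z + a (f z), ?_, ?_⟩
    · refine (hG'an.sub hG.an).add (AnalyticAt.comp (g := a) ?_ hfa)
      rwa [hfe]
    · have h1 : Tendsto (fun y => (y, κ • y)) (𝓝 y) (𝓝 (y, κ • y)) := by
        rw [nhds_prod_eq]
        exact tendsto_id.prodMk (hS.gal.cont κ).continuousAt
      filter_upwards [h1.eventually hev, hf] with y' g1 g2
      have g3 : T y' (κ • y') = (G' (e (p (κ • y'))) - G (e (p y')) + a (F y')) +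
          J (G' (e (p (κ • y'))) - G (e (p y')) + a (F y')) := g1 (hFκ κ hκ y').symm
      rw [g3, hpg, g2]
  -- the sheet coordinates
  obtain ⟨C, -⟩ := H212.exists_pc (γ := D.γ) (b₀ := D.b₀) (by rw [hD.γ, hD.b₀]; exact hC.γan)
    (by rw [hD.γ, hD.b₀]; exact hC.imm) one_pos
  obtain ⟨N₀, hN₀, hconst⟩ := hLC n q r k s m X w E Γ p F c K hS W H π S Θ J T hJ hT hE v U N 𝒢 hL
    y₀ hy₀ hFy₀ e b F0 β γ τ hC
  -- the section
  have hBan : AnalyticAt ℂ (fun z => β (b z)) (e (p y₀)) :=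
    AnalyticAt.comp (g := β) hC.βan hC.ban
  have hBs : Function.Surjective (fderiv ℂ (fun z => β (b z)) (e (p y₀))) := by
    have h1 : HasFDerivAt (fun z => β (b z)) ((fderiv ℂ β (b (e (p y₀)))).comp
        (fderiv ℂ b (e (p y₀)))) (e (p y₀)) :=
      HasFDerivAt.comp (g := β) (e (p y₀)) hC.βan.differentiableAt.hasFDerivAt
        hC.ban.differentiableAt.hasFDerivAt
    rw [h1.fderiv]
    exact hC.βsurj.comp hC.bsurj
  have hOs : N₀ ∩ F ⁻¹' (RV n p F) ∈ 𝓝 y₀ :=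
    inter_mem hN₀ (hFc.continuousAt.preimage_mem_nhds (hRVo.mem_nhds hFy₀))
  obtain ⟨σ, r₂, hr₂, hσ⟩ := exists_secE hp hC.mem hBan hBs hOs
  rw [← hD.b₀] at hσ
  set DD : Γ → Cm s → W := fun κ x => T (σ x) (κ • σ x) with hDD
  -- `DD κ` is locally the real part of an analytic map
  have hDDan : ∀ κ : Γ, c κ = 0 → ∀ x ∈ ball D.b₀ r₂, ∃ Φ : Cm s → W, AnalyticAt ℂ Φ x ∧
      ∀ᶠ x' in 𝓝 x, DD κ x' = Φ x' + J (Φ x') := by
    intro κ hκ x hx
    obtain ⟨h1, h2, h3, h4, h5⟩ := hσ x hx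
    obtain ⟨Ψ, hΨ, hev⟩ := hdsp κ hκ (σ x) e h2.2 h3
    refine ⟨fun x => Ψ (e (p (σ x))), AnalyticAt.comp (g := Ψ) hΨ h5, ?_⟩
    exact h1.eventually hev
  refine ⟨min C.r₁ r₂, lt_min C.r₁_pos hr₂, fun R hR hRle => ?_⟩
  have hRC : ball D.b₀ R ⊆ ball D.b₀ C.r₁ := ball_subset_ball (hRle.trans (min_le_left _ _))
  have hRr₂ : ball D.b₀ R ⊆ ball D.b₀ r₂ := ball_subset_ball (hRle.trans (min_le_right _ _))
  -- the germ condition
  set Ev : Γ → E → Prop := fun κ y => ∀ᶠ y' in 𝓝 y, F y' ∈ RV n p F → ∀ x ∈ ball D.b₀ R,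
    Sh p v F D y' x → T y' (κ • y') = DD κ x with hEv
  refine ⟨{y | NZ p v y ∧ (∃ x ∈ ball D.b₀ R, Sh p v F D y x) ∧ ∀ κ : Γ, c κ = 0 → Ev κ y},
    ⟨fun y hy => hy.2.1, ?_⟩, ?_, ?_, ?_⟩
  · -- clopen
    rintro y hyz ⟨x, hx, hsh⟩
    obtain ⟨e₁, β₁, he₁, hβ₁, hb₁, hev₁⟩ := sh_near hp hsh
    have hβc : ∀ᶠ y' in 𝓝 y, β₁ (e₁ (p y')) ∈ ball D.b₀ R := by
      have h1 : Tendsto (fun y' => β₁ (e₁ (p y'))) (𝓝 y) (𝓝 (β₁ (e₁ (p y)))) :=
        hβ₁.continuousAt.tendsto.comp (tendsto_ep hp he₁)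
      rw [hb₁] at h1
      exact h1.eventually (isOpen_ball.mem_nhds hx)
    -- an open connected neighbourhood
    have hgood : ∀ᶠ y' in 𝓝 y, NZ p v y' ∧ AnalyticAt ℂ β₁ (e₁ (p y')) ∧ At e₁ (p y') ∧
        Sh p v F D y' (β₁ (e₁ (p y'))) ∧ β₁ (e₁ (p y')) ∈ ball D.b₀ R := by
      filter_upwards [H335.nz_open hp hv hyz, hev₁, hβc] with y' g1 g2 g3
      exact ⟨g1, g2.1, g2.2.1, g2.2.2, g3⟩
    obtain ⟨Uy, hUy, hUo, hyU, hUc⟩ := exists_conn_nhd hp he₁ hgood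
    obtain ⟨hAc, hAd⟩ := hsep univ (thin_univ' n p) Uy hUo hUc
    rw [inter_univ] at hAc hAd
    have hUA : ∀ y' ∈ Uy, F y' ∈ RV n p F → y' ∈ Uy ∩ F ⁻¹' RV n p F := fun y' h1 h2 => ⟨h1, h2⟩
    have hcl : ∀ κ : Γ, c κ = 0 → ∀ y₁ ∈ Uy, ∀ y₂ ∈ Uy, Ev κ y₁ → Ev κ y₂ := by
      intro κ hκ y₁ hy₁ y₂ hy₂ h1
      set f : E → W := fun y' => T y' (κ • y') - DD κ (β₁ (e₁ (p y'))) with hf
      have hfre : ∀ y' ∈ Uy ∩ F ⁻¹' RV n p F, H366.J.ReAt n p J f y' := by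
        rintro y' ⟨hy'U, hy'R⟩
        obtain ⟨-, g1, g2, -, g4⟩ := hUy hy'U
        obtain ⟨Ψ, hΨ, hΨe⟩ := hdsp κ hκ y' e₁ hy'R g2
        obtain ⟨Φ, hΦ, hΦe⟩ := hDDan κ hκ _ (hRr₂ g4)
        refine ⟨e₁, fun z => Ψ z - Φ (β₁ z), g2, hΨ.sub (AnalyticAt.comp (g := Φ) hΦ g1), ?_⟩
        have h2 : Tendsto (fun y'' => β₁ (e₁ (p y''))) (𝓝 y') (𝓝 (β₁ (e₁ (p y')))) :=
          g1.continuousAt.tendsto.comp (tendsto_ep hp g2)
        filter_upwards [hΨe, h2.eventually hΦe] with y'' k1 k2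
        show T y'' (κ • y'') - DD κ (β₁ (e₁ (p y''))) = _
        rw [k1, k2, map_sub]
        abel
      -- a point of `A` where `Ev` holds
      obtain ⟨y', hy'1, hy'2⟩ : ∃ y' ∈ Uy ∩ F ⁻¹' RV n p F, ∀ᶠ y'' in 𝓝 y', F y'' ∈ RV n p F →
          ∀ x ∈ ball D.b₀ R, Sh p v F D y'' x → T y'' (κ • y'') = DD κ x := by
        have h2 := hAd hy₁
        rw [mem_closure_iff_frequently] at h2
        obtain ⟨y', k1, k2⟩ := (h2.and_eventually h1.eventually_nhds).exists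
        exact ⟨y', k1, k2⟩
      have h3 : ∀ᶠ y'' in 𝓝 y', f y'' = 0 := by
        filter_upwards [hy'2, hUo.mem_nhds hy'1.1,
          hFc.continuousAt.preimage_mem_nhds (hRVo.mem_nhds hy'1.2)] with y'' k1 k2 k3
        obtain ⟨-, -, -, g3, g4⟩ := hUy k2
        show T y'' (κ • y'') - DD κ (β₁ (e₁ (p y''))) = 0
        rw [k1 k3 _ g4 g3, sub_self]
      have h4 := H366.J.ident_re hp hAc hfre hy'1 h3
      filter_upwards [hUo.mem_nhds hy₂] with y'' k1 k2 x' hx' hsh'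
      obtain ⟨g0, -, -, g3, g4⟩ := hUy k1
      have k3 : T y'' (κ • y'') - DD κ (β₁ (e₁ (p y''))) = 0 :=
        (h4 y'' ⟨k1, k2⟩).self_of_nhds
      have k4 : x' = β₁ (e₁ (p y'')) := sh_uniq hv.change C g0 (hRC hx') (hRC g4) hsh'
        (fun e he ξ => sh_onL hv.change g3 e he ξ)
      rw [k4]
      exact sub_eq_zero.1 k3
    filter_upwards [hUo.mem_nhds hyU] with y' hy'
    obtain ⟨g0, -, -, g3, g4⟩ := hUy hy'
    constructor
    · rintro ⟨-, -, h1⟩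
      exact ⟨hyz, ⟨x, hx, hsh⟩, fun κ hκ => hcl κ hκ y' hy' y hyU (h1 κ hκ)⟩
    · rintro ⟨-, -, h1⟩
      exact ⟨g0, ⟨_, g4, g3⟩, fun κ hκ => hcl κ hκ y hyU y' hy' (h1 κ hκ)⟩
  · -- the base point
    have hNZ₀ : NZ p v y₀ := by
      obtain ⟨ξ, hξ⟩ := H335.exists_frame (R := q + r) (L := fderiv ℂ b (e (p y₀))) hC.bsurj
      refine ⟨e, hC.mem, ξ, ?_⟩
      rw [hC.v_eq.self_of_nhds ξ]
      exact smul_ne_zero (pow_ne_zero _ hξ) hC.imm.1
    have hbt : Tendsto (fun y => b (e (p y))) (𝓝 y₀) (𝓝 (b (e (p y₀)))) :=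
      hC.ban.continuousAt.tendsto.comp (tendsto_ep hp hC.mem)
    have hβt : Tendsto (fun y => β (b (e (p y)))) (𝓝 y₀) (𝓝 D.b₀) := by
      rw [hD.b₀]
      exact hC.βan.continuousAt.tendsto.comp hbt
    have hsh₀ : Sh p v F D y₀ D.b₀ := by
      refine ⟨e, fun z => β (b z), hC.mem, hBan, hD.b₀.symm, ?_⟩
      filter_upwards [hC.v_eq, hC.t_eq, hbt.eventually hC.leaf] with y g1 g2 g3
      refine ⟨fun ξ => ⟨(Matrix.of fun i j => fderiv ℂ b (e (p y)) (ξ j) i).det ^ m, ?_⟩, ?_⟩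
      · rw [g1 ξ, hD.γ]
      · show F y - D.t (β (b (e (p y)))) ∈ LinearMap.range (D.N _ : Cm k →ₗ[ℂ] Cm q)
        rw [hD.N, hD.t, g2]
        exact g3
    refine ⟨hNZ₀, ⟨D.b₀, mem_ball_self hR, hsh₀⟩, fun κ hκ => ?_⟩
    have h1 : ∀ᶠ y in 𝓝 y₀, Sh p v F D y (β (b (e (p y)))) := by
      have hβb : ∀ᶠ z in 𝓝 (e (p y₀)), AnalyticAt ℂ (fun z => β (b z)) z := hBan.eventually_analyticAt
      obtain ⟨h2, h3, h4⟩ := And.intro (hC.v_eq.eventually_nhds)
        (And.intro (hC.t_eq.eventually_nhds) ((hbt.eventually hC.leaf).eventually_nhds))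
      filter_upwards [h2, h3, h4, at_ev hp hC.mem, (tendsto_ep hp hC.mem).eventually hβb]
        with y g1 g2 g3 g4 g5
      refine ⟨e, fun z => β (b z), g4, g5, rfl, ?_⟩
      filter_upwards [g1, g2, g3] with y' k1 k2 k3
      refine ⟨fun ξ => ⟨(Matrix.of fun i j => fderiv ℂ b (e (p y')) (ξ j) i).det ^ m, ?_⟩, ?_⟩
      · rw [k1 ξ, hD.γ]
      · show F y' - D.t (β (b (e (p y')))) ∈ LinearMap.range (D.N _ : Cm k →ₗ[ℂ] Cm q)
        rw [hD.N, hD.t, k2]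
        exact k3
    filter_upwards [hN₀, h1, H335.nz_open hp hv hNZ₀, hβt.eventually (ball_mem_nhds D.b₀ hR)]
      with y g1 g2 g3 g4 hyR x hx hsh
    have hxe : x = β (b (e (p y))) := sh_uniq hv.change C g3 (hRC hx) (hRC g4) hsh
      (fun e he ξ => sh_onL hv.change g2 e he ξ)
    obtain ⟨-, k2, -, k4, -⟩ := hσ x (hRr₂ hx)
    exact hconst y g1 (σ x) k2.1 (by rw [k4, hxe]) κ hκ
  · rintro y ⟨-, -, h1⟩ y' ⟨-, -, h2⟩ hy hy' x hx hsh hsh' κ hκ
    rw [(h1 κ hκ).self_of_nhds hy x hx hsh, (h2 κ hκ).self_of_nhds hy' x hx hsh']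
  · -- the invariance
    -- transport of the sheet
    have hcm : ∀ g g' : Γ, c (g * g') = c g + c g' := fun g g' => by
      have h1 := hS.eqv (g * g') y₀
      rw [mul_smul, hS.eqv, hS.eqv] at h1
      have h2 : c g' + c g = c (g * g') := by
        have := h1
        rw [add_assoc] at this
        exact add_left_cancel this
      rw [← h2, add_comm]
    have hc1 : c 1 = 0 := by
      have h1 := hcm 1 1
      rw [mul_one] at h1
      exact left_eq_add.1 h1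
    have hci : ∀ g : Γ, c g⁻¹ = - c g := fun g => by
      have h1 := hcm g⁻¹ g
      rw [inv_mul_cancel, hc1] at h1
      exact eq_neg_of_add_eq_zero_left h1.symm
    have hnh : ∀ (g : Γ) (y : E) (P : E → Prop), (∀ᶠ y' in 𝓝 y, P y') →
        ∀ᶠ y'' in 𝓝 (g • y), P (g⁻¹ • y'') := by
      intro g y P h1
      have h2 : Tendsto (fun y'' : E => g⁻¹ • y'') (𝓝 (g • y)) (𝓝 y) := by
        have h3 := (hS.gal.cont g⁻¹).tendsto (g • y)
        rwa [inv_smul_smul] at h3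
      exact h2.eventually h1
    have hshg : ∀ g : Γ, π g = 1 → c g ∈ LinearMap.range (N : Cm k →ₗ[ℂ] Cm q) → ∀ y x,
        Sh p v F D y x → Sh p v F D (g • y) x := by
      rintro g hπ hcg y x ⟨e', β', g1, g2, g3, g4⟩
      refine ⟨e', β', by rwa [hpg], by rwa [hpg], by rwa [hpg], ?_⟩
      filter_upwards [hnh g y _ (g4.and (at_ev hp g1))] with y'' k
      obtain ⟨⟨k1, k2⟩, k3⟩ := k
      have hyy : g • (g⁻¹ • y'') = y'' := smul_inv_smul g y''
      set y' := g⁻¹ • y'' with hy'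
      have hpy : p y'' = p y' := by rw [← hyy, hpg]
      refine ⟨fun ξ => ?_, ?_⟩
      · obtain ⟨a, ha⟩ := k1 ξ
        refine ⟨a, ?_⟩
        rw [hpy, ← ha, ← hyy]
        exact hL.triv g hπ y' e' k3 ξ
      · rw [hpy, ← hyy, hS.eqv]
        have h5 : c g ∈ D.Q (β' (e' (p y'))) := by
          show c g ∈ LinearMap.range (D.N _ : Cm k →ₗ[ℂ] Cm q)
          rw [hD.N]
          exact hcg
        have h6 : F y' + c g - D.t (β' (e' (p y'))) = (F y' - D.t (β' (e' (p y')))) + c g := by abel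
        rw [h6]
        exact Submodule.add_mem _ k2 h5
    rintro g hgK hπ hcg y ⟨⟨e', he', ξ, hξ⟩, ⟨x, hx, hsh⟩, h1⟩
    have hπi : π g⁻¹ = 1 := by rw [map_inv, hπ, inv_one]
    have hcgi : c g⁻¹ ∈ LinearMap.range (N : Cm k →ₗ[ℂ] Cm q) := by
      rw [hci]
      exact Submodule.neg_mem _ hcg
    refine ⟨⟨e', by rwa [hpg], ξ, by rwa [hL.triv g hπ y e' he' ξ]⟩, ⟨x, hx, hshg g hπ hcg y x hsh⟩,
      fun κ hκ => ?_⟩
    filter_upwards [hnh g y _ (h1 κ hκ)] with y'' k1 k2 x' hx' hsh'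
    have hyy : g • (g⁻¹ • y'') = y'' := smul_inv_smul g y''
    have hR' : F (g⁻¹ • y'') ∈ RV n p F := by
      rw [hS.eqv]
      exact hRVc g⁻¹ _ k2
    have k3 := k1 hR' x' hx' (hshg g⁻¹ hπi hcgi y'' x' hsh')
    set y' := g⁻¹ • y'' with hy'
    have hcomm : g * κ = κ * g := hgK κ ((hS.ker κ).2 hκ)
    have k4 : κ • y'' = g • (κ • y') := by
      rw [← hyy, smul_smul, ← hcomm, mul_smul]
    rw [k4, ← hyy, hE g y' (κ • y') (hFκ κ hκ y').symm hR', hπ, k3]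
    rfl

end Vale.Agent.P284.H366.T
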